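import Vale.Agent.P315F.Main

namespace Vale.Agent.Results.P315.AllInputs

open Vale.Agent.P315

open Classical in
theorem result : ∀ ε : ℝ, 0 < ε → ∀ ξ : ℝ, 0 < ξ → ∀ a : ℕ,
    ∃ (P : List Cmd) (C w : ℕ), ∀ (n : ℕ) (x y : List ℕ), x.length ≤ n → y.length ≤ n →
      (∀ s ∈ x, s ≤ n ^ a) → (∀ s ∈ y, s ≤ n ^ a) →
      ∀ R : ℕ, C * ((n : ℝ) + 1) ^ (1 + ξ) ≤ R →
        (∀ r : Fin R → Bool, ∃ m t, Exec P ((n + C) ^ w) (.call 0) (input n x y r) m t ∧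
          (t : ℝ) ≤ C * ((n : ℝ) + 1) ^ (1 + ξ)) ∧
        (2 / 3 : ℝ) * 2 ^ R ≤ ((Finset.univ.filter fun r : Fin R → Bool =>
          ∀ m t, Exec P ((n + C) ^ w) (.call 0) (input n x y r) m t →
            ED x y ≤ m 4 0 ∧ (m 4 0 : ℝ) ≤ (1 + ε) * ED x y).card : ℝ) :=
  Vale.Agent.P315F.main_all

end Vale.Agent.Results.P315.AllInputs
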